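import Vale.Agent.P050.Local.Sampling

/-!
P050: Sidorenko's inequality holds in an `L^∞` ball around the constants whose radius is an
absolute constant times the density divided by the maximum degree of the bipartite graph.
-/

namespace Vale.Agent.Results.P050.LocalRadiusMaxDegree

open MeasureTheory Vale.Agent.P050.Local

theorem result : ∃ c : ℝ, 0 < c ∧
    ∀ (V : Type) [Fintype V] [DecidableEq V] (H : SimpleGraph V) [DecidableRel H.Adj],
      H.IsBipartite →
    ∀ (Ω : Type) [MeasurableSpace Ω] (μ : Measure Ω) [IsProbabilityMeasure μ]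
      (W : Ω → Ω → ℝ) (hs : ∀ x y, W x y = W y x), Measurable (Function.uncurry W) →
    ∀ p : ℝ, 0 < p → ∫ q, W q.1 q.2 ∂(μ.prod μ) = p →
      (∀ᵐ q ∂(μ.prod μ), |W q.1 q.2 - p| * H.maxDegree ≤ c * p) →
      p ^ H.edgeFinset.card ≤ ∫ x, ∏ e ∈ H.edgeFinset,
          Sym2.lift ⟨fun u v => W (x u) (x v), fun u v => hs (x u) (x v)⟩ e
        ∂(Measure.pi fun _ : V => μ) := by
  classical
  refine ⟨1 / 2 ^ 26, by norm_num, ?_⟩
  intro V _ _ H _ hbip Ω _ μ _ W hs hW p hp hmean hclose
  rcases H.edgeFinset.eq_empty_or_nonempty with hE | ⟨e₀, he₀⟩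
  · simp [hE]
  have hΔ : 1 ≤ H.maxDegree := by
    induction e₀ using Sym2.ind with
    | _ a b =>
      rw [SimpleGraph.mem_edgeFinset, SimpleGraph.mem_edgeSet] at he₀
      exact le_trans (Finset.card_pos.2 ⟨b, (H.mem_neighborFinset a b).2 he₀⟩)
        (H.degree_le_maxDegree a)
  have hΔ' : (0 : ℝ) < H.maxDegree := by exact_mod_cast hΔ
  set δ : ℝ := 1 / 2 ^ 26 / H.maxDegree with hδ
  have hδ0 : 0 < δ := by positivity
  let W' : Ω → Ω → ℝ := fun x y => if |W x y / p - 1| ≤ δ then W x y / p else 1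
  have hW' : Measurable (Function.uncurry W') := by
    have h1 : Measurable fun q : Ω × Ω => W q.1 q.2 / p := hW.div_const p
    exact Measurable.ite (measurableSet_le (h1.sub_const 1).norm measurable_const) h1
      measurable_const
  have hae : ∀ᵐ q ∂(μ.prod μ), W' q.1 q.2 = W q.1 q.2 / p := by
    filter_upwards [hclose] with q hq
    refine if_pos ?_
    rw [div_sub_one hp.ne', abs_div, abs_of_pos hp, hδ, div_le_div_iff₀ hp hΔ']
    exact hq
  have hmean' : ∫ q, W' q.1 q.2 ∂(μ.prod μ) = 1 := by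
    rw [integral_congr_ae hae, integral_div, hmean, div_self hp.ne']
  have hb : ∀ x y, |W' x y - 1| ≤ δ := fun x y => by
    simp only [W']; split_ifs with h
    · exact h
    · simp [hδ0.le]
  have hl : Loopless H.edgeFinset := fun e he =>
    H.not_isDiag_of_mem_edgeSet (SimpleGraph.mem_edgeFinset.1 he)
  obtain ⟨col⟩ := hbip
  let c : V → Bool := fun v => decide (col v = 0)
  have hc : ∀ u v, s(u, v) ∈ H.edgeFinset → c u ≠ c v := by
    intro u v h
    rw [SimpleGraph.mem_edgeFinset, SimpleGraph.mem_edgeSet] at h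
    have := col.valid h
    simp only [c, ne_eq, decide_eq_decide]
    omega
  have hdeg : ∀ v, deg H.edgeFinset v ≤ H.maxDegree := fun v => by
    refine le_trans (le_of_eq ?_) (H.degree_le_maxDegree v)
    rw [← H.card_incidenceFinset_eq_degree, deg, H.incidenceFinset_eq_filter]
  have key := one_le_integral μ hW' (fun x y => by simp only [W', hs x y]) hδ0 hb hmean' hl c hc
    hΔ hdeg (le_of_eq (by rw [hδ, div_mul_cancel₀ _ hΔ'.ne']))
  have hpair : ∀ e ∈ H.edgeFinset, ∀ᵐ x ∂(Measure.pi fun _ : V => μ),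
      W' (x e.out.1) (x e.out.2) = W (x e.out.1) (x e.out.2) / p := by
    intro e he
    have hne : e.out.1 ≠ e.out.2 := fun h => hl e he <| by
      rw [← Quot.out_eq e]; exact Sym2.mk_isDiag_iff.2 h
    have hφ : Function.Injective ![e.out.1, e.out.2] := by
      intro i j h
      fin_cases i <;> fin_cases j <;> simp_all
    have h1 := (measurePreserving_finTwoArrow μ).comp
      (measurePreserving_comp μ ![e.out.1, e.out.2] hφ)
    have h2 := h1.quasiMeasurePreserving.ae hae
    simpa [MeasurableEquiv.finTwoArrow] using h2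
  have hall := (Filter.eventually_all_finset H.edgeFinset).2 hpair
  have e1 : ∫ x, ∏ e ∈ H.edgeFinset,
      Sym2.lift ⟨fun u v => W (x u) (x v), fun u v => hs (x u) (x v)⟩ e ∂(Measure.pi fun _ : V => μ)
      = p ^ H.edgeFinset.card * ∫ x, ∏ e ∈ H.edgeFinset, W' (x e.out.1) (x e.out.2)
          ∂(Measure.pi fun _ : V => μ) := by
    rw [← integral_const_mul]
    refine integral_congr_ae ?_
    filter_upwards [hall] with x hx
    rw [← Finset.prod_const, ← Finset.prod_mul_distrib]
    refine Finset.prod_congr rfl fun e he => ?_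
    rw [hx e he, mul_div_cancel₀ _ hp.ne']
    conv_lhs => rw [← Quot.out_eq e]
    rfl
  rw [e1]
  exact le_mul_of_one_le_right (pow_nonneg hp.le _) key

end Vale.Agent.Results.P050.LocalRadiusMaxDegree
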